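import Vale.Agent.P181.DX.H207.Pre
import Vale.Agent.P181.DX.H357.AsmX
import Vale.Agent.P181.DU.H244.Main

set_option autoImplicit false

/-!
# P181, DX: the theorem for every `a ≤ b`, without hypotheses
-/

namespace Vale.Agent.P181.DX

open Vale.Agent.P181.SZ Vale.Agent.P181.DG

/-- (X8) -/
theorem asmXc : AsmX :=
  H357.asmX DGx.H831.monoT DG2.H398.upT DU.H556.lowU DG9.disT DU.shiftT DG5.fewT DG6.H887.markT
    DU.S317.W7.flowW DU.O244.flowX R1b.upperS (fun a b m lam => R1a a b m lam) SZR2a.lowerA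
    H467.pieS

/-- **The theorem.** Every `a ≤ b`. -/
theorem diagWc : X924.DiagW := diagW_of_asm asmXc

/-- **One sentence for all `a ≤ b`.** -/
theorem uniXc : X924.UniX := uniX_of_asm asmXc

/-- The version with `P w ≤ (b - a) ^ 2`. -/
theorem uniBc : X924.UniB := X924.uniB_of uniXc

/-- The version for `2 a ≤ b`. -/
theorem linXc : X924.LinX := X924.linX_of uniXc

end Vale.Agent.P181.DX
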