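import Vale.Agent.P181.DU.H207.All
import Vale.Agent.P181.DX.H924.Uni
import Vale.Agent.P181.TW.Final
import Vale.Agent.P181.PLX.Main

set_option autoImplicit false

/-!
# P181, DX: the theorem for every `a ≤ b`, from the assembly `AsmX` only
-/

namespace Vale.Agent.P181.DX

open Vale.Agent.P181.SZ Vale.Agent.P181.DG

/-- The theorem for every `a ≤ b`, from `AsmX`. -/
theorem diagW_of_asm (hA : AsmX) : X924.DiagW :=
  X924.diagW_of hA PL4.lbl (PL3.lbi PL2.lEx) SZN3.lbcF SZN3.lbrF H467.NT.linS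

/-- One sentence for all `a ≤ b`, from `AsmX`. -/
theorem uniX_of_asm (hA : AsmX) : X924.UniX :=
  X924.uniX_of (diagW_of_asm hA) TW.twice PLX.polyS

end Vale.Agent.P181.DX
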