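import Vale.Agent.P181.HO.H207.All
import Vale.Agent.P181.DX.H556.Sec
import Vale.Agent.P181.FD.H422.All

set_option autoImplicit false

/-!
# P181, DX + HO + FD: every partition with a short second row, without hypotheses
-/

namespace Vale.Agent.P181.DX

/-- **Every partition with a short second row.** -/
theorem secYc : H556.SecY := H556.secY_of HO.uniYc FD.fatLog

end Vale.Agent.P181.DX
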